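import Vale.Agent.P144D.R8.Defs
import Vale.Agent.P144D.LM.Defs
import Vale.Agent.P144D.W.Agree

/-!
The statements on the flow and on the mixed correlations in geometries with a boundary.
-/

namespace Vale.Agent.P144Z

open Finset Matrix

/-- The boundary is good at the steps below `J`; at the first step the loss is only bounded. -/
def Bnd {M : ℕ} [NeZero M] (A : Gauge M) (L J m : ℕ) (c ε : ℝ) : Prop :=
  ∀ j < J, ∃ (η κ : ℝ) (n₁ n₂ : ℕ), 0 < η ∧ η ≤ c ∧ 0 < κ ∧ 8 * κ ≤ 1 ∧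
    bdl L m c η κ n₁ n₂ ≤ (if j = 0 then (L : ℝ) ^ 2 else ε) ∧
    Bd A (sc L j) (L * sc L j) m c η κ n₁ n₂

namespace Geo

variable (g : Geo)

/-- The geometries of the flow with a boundary. -/
structure PreD (L m Λ : ℕ) (c ε : ℝ) : Prop where
  ok : g.OkW
  on : ∀ k, (g.src k).on = true
  lo : 16 * sc L g.J ≤ g.M
  hi : g.M ≤ Λ * sc L g.J
  sep : g.SepW (8 * sc L g.J)
  bnd : Bnd g.A L g.J m c ε

open Classical in
/-- The bounds on the flow up to the step `g.J`. -/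
structure FlowD (L : ℕ) (q : Par) (u : Cor g.M) (Zε w a b h : ℝ) : Prop where
  conv : g.ConvC L q u g.J
  conv0 : g.ConvC L par0 0 g.J
  early : ∀ j ≤ g.J, Anch (sc L j) (2 * L)
    (fun U => if g.Exc U then 0 else g.ps (w * sc L j) U (g.csC L q u j U)) (a / 2 ^ j)
  early0 : ∀ j ≤ g.J, ∀ U, ¬ g.Exc U → g.cs L par0 j U = 0
  flow0 : ∑ X, (g.flow L par0 0 g.J).H X = ∑ k, (-2 * tc) • g.bE k
  last : g.pn (sc L g.J) h (w * sc L g.J) univ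
    (∑ X, (g.flowC L q u g.J).H X - ∑ k, (Zε * (-2 * tc)) • g.bE k) ≤ b / 2 ^ g.J
  size : ∀ k, g.pn (sc L g.J) h (w * sc L g.J) univ ((Zε * (-2 * tc)) • g.bE k) ≤ 1

/-- The sign of the edge of the source `k`. -/
noncomputable def sgK (k : g.K) (n : g.Cfg) : ℝ := sgn (n ((g.src k).y, (g.src k).dir))

/-- The mixed correlation, normalised and centred in the reference field `A'`. -/
noncomputable def mixD (A' : Gauge g.M) (q : Par) (u : Cor g.M) : ℝ :=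
  ZwC q u g.A (fun n => ∏ k, (g.sgK k n - ZwC q u A' (g.sgK k) / ZwC q u A' 1)) / ZwC q u A' 1

open Classical in
/-- The field `g.A` has `n` isolated fluxes more than the reference field `A'`, which has a gap;
the boundary is good for both fields. -/
structure Dom (A' : Gauge g.M) (L n m Λ r : ℕ) (c ε Γ : ℝ) : Prop where
  ok : g.OkW
  on : ∀ k, (g.src k).on = true
  w : IsW A'
  lo : 8 * sc L g.J ≤ r
  hi : r ≤ 8 * sc L (g.J + 1)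
  Mlo : 8 * r ≤ g.M
  Mhi : g.M ≤ Λ * r
  sep : g.SepW r
  card : (univ.filter fun f => flux g.A f = -1).card = n
  fl : ∀ f, flux A' f = if flux g.A f = -1 then 1 else flux g.A f
  eqv : ∀ z, ∀ T ≤ r, (∀ f, tdist f z ≤ T → flux g.A f ≠ -1) → ∃ s : g.P → ℝ, IsSign s ∧
    ∀ x i, tdist x z ≤ T → tdist (x + uv g.M i) z ≤ T →
      A' (x, i) = s x * s (x + uv g.M i) * g.A (x, i)
  bnd : Bnd g.A L g.J m c ε
  bnd' : Bnd A' L g.J m c ε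
  gap : ∀ φ, φ ⬝ᵥ φ ≤ (Γ * sc L g.J) ^ 2 * ((Dm A' *ᵥ φ) ⬝ᵥ (Dm A' *ᵥ φ))
  ne : Zw par0 A' 1 ≠ 0

end Geo

/-- The bounds on the flow in the plane and with a boundary, with the same constant `Zε`. -/
def FlowStmtD : Prop :=
  ∃ ε₀ > 0, ∀ (c : ℝ) (m : ℕ), 1 ≤ c → ∃ L₀ : ℕ, ∀ L ≥ L₀, ∃ C : ℝ, 1 ≤ C ∧ ∃ η₀ > 0, ∀ η, 0 < η →
    η ≤ η₀ → ∀ R : ℕ, ∃ δ₀ > 0, ∀ q : Par, q.R = R → Crit L q η δ₀ → ∃ Zε : ℝ, |Zε - 1| ≤ C * η ∧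
      (∀ N₀ Λ : ℕ, 1 ≤ Λ → ∃ w > 0, ∃ J₀ : ℕ, ∀ J ≥ J₀, ∀ r : ℕ, 8 * sc L J ≤ r →
        r ≤ 8 * sc L (J + 1) → ∃ M₀ : ℕ, ∀ g : Geo, g.J = J → g.Nice N₀ Λ r → M₀ ≤ g.M → ∀ N : ℕ,
          16 * sc L N ≤ g.M → g.M ≤ 16 * sc L (N + 1) → g.FlowB L q N Zε w (C * η) C) ∧
      ∀ (Λ : ℕ) (h : ℝ), 0 < h → ∃ w > 0, ∃ b > 0, ∃ J₀ : ℕ, ∀ g : Geo, J₀ ≤ g.J →
        g.PreD L m Λ c ε₀ → ∀ u : Cor g.M, u.Ok → u.Off g.A → u.Sm R η δ₀ →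
          g.FlowD L q u Zε w (C * η) b h

/-- The mixed correlations with a boundary are those of the nearest-neighbour model up to the two
constants; `K` is the bound on the last integration. -/
def MainD (L m : ℕ) (c ε₀ η δ : ℝ) (q : Par) (Zσ Zε : ℝ) : Prop :=
  ∀ (n k Λ : ℕ) (Γ : ℝ), 1 ≤ Γ → ∃ B : ℝ, ∀ ε > 0, ∃ J₀ : ℕ, ∀ (g : Geo) (A' : Gauge g.M) (r : ℕ),
    J₀ ≤ g.J → Fintype.card g.K = k → g.Dom A' L n m Λ r c ε₀ Γ → ∀ u : Cor g.M, u.Ok → u.Off A' →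
      u.Sm q.R η δ → ∀ K : ℝ, g.LastB (sc L g.J) Γ K →
        |g.mixD A' q u - Zσ ^ n * Zε ^ k * g.mixD A' par0 0| ≤
          ε / (r : ℝ) ^ k * (K / |Zw par0 A' 1|) ∧
        |g.mixD A' par0 0| ≤ B / (r : ℝ) ^ k * (K / |Zw par0 A' 1|)

/-- Universality of the mixed correlations in the plane and with a boundary. -/
def MainStmtD : Prop :=
  ∃ ε₀ > 0, ∀ (c : ℝ) (m : ℕ), 1 ≤ c → ∃ L₀ : ℕ, ∀ L ≥ L₀, ∀ ε > 0, ∃ η₀ > 0, ∀ R : ℕ, ∃ δ₀ > 0,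
    ∀ q : Par, q.R = R → Crit L q η₀ δ₀ → ∃ Zσ Zε : ℝ, |Zσ - 1| < ε ∧ |Zε - 1| < ε ∧
      MainOK q Zσ Zε ∧ MainD L m c ε₀ η₀ δ₀ q Zσ Zε

end Vale.Agent.P144Z
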