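import Vale.Agent.P144D.Defs
import Vale.Agent.P144D.FD.Defs
import Vale.Agent.P144D.W.Main
import Vale.Agent.P144Z.FM.Zinf
import Vale.Agent.P144Z.H4.Kap

/-!
From the main estimate for geometries with a boundary to the main estimate for regions.
-/

namespace Vale.Agent.P144Z

open Finset Matrix

namespace Both

variable {M : ℕ} [NeZero M] {P B : Gauge M}

omit [NeZero M] in
theorem nonneg (h : IsP P) (e : Tor M × Fin 2) : 0 ≤ P e := by
  have := two_le_tT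
  rcases h e with h | h | h <;> rw [h] <;> linarith

omit [NeZero M] in
theorem isW (h : IsP P) : IsW P := fun e => by
  rw [abs_of_nonneg (nonneg h e)]
  exact h e

omit [NeZero M] in
theorem isW_mul (h : IsP P) (hB : IsSign B) : IsW (P * B) := fun e => by
  have h1 : |B e| = 1 := by rcases hB e with h | h <;> simp [h]
  rcases isW h e with h2 | h2
  · exact Or.inl (by rw [Pi.mul_apply, h2, zero_mul])
  · right
    rwa [Pi.mul_apply, abs_mul, h1, mul_one]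

omit [NeZero M] in
theorem flux_mul (A B : Gauge M) (f : Tor M) : flux (A * B) f = flux A f * flux B f := by
  simp only [flux, Pi.mul_apply]
  ring

omit [NeZero M] in
theorem flux_nonneg (h : IsP P) (f : Tor M) : 0 ≤ flux P f :=
  mul_nonneg (mul_nonneg (mul_nonneg (nonneg h _) (nonneg h _)) (nonneg h _)) (nonneg h _)

theorem flux_const {r : ℕ} (hr : 1 ≤ r) {f : Tor M} {c : ℝ} (h : ∀ e, tdist e.1 f ≤ r → P e = c) :
    flux P f = c ^ 4 := by
  have h0 : tdist f f ≤ r := by rw [tdist_self]; omega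
  rw [flux, h (f, 0) h0, h (f, 1) h0, h (f + uv M 0, 1) ((tdist_uv f 0).trans hr),
    h (f + uv M 1, 0) ((tdist_uv f 1).trans hr)]
  ring

omit [NeZero M] in
theorem flux_B (h : IsP P) (hB : IsSign B) {f : Tor M} (hf : flux (P * B) f = -1) :
    flux B f = -1 := by
  by_contra h1
  rw [flux_mul, FM.flux_eq_one hB h1, mul_one] at hf
  linarith [flux_nonneg h f]

theorem fl (h : IsP P) {r : ℕ} (hB : Str P B r) (hr : 1 ≤ r) (f : Tor M) :
    flux P f = if flux (P * B) f = -1 then 1 else flux (P * B) f := by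
  by_cases h1 : flux B f = -1
  · rw [flux_mul, h1]
    rcases hB.fl f h1 with h2 | h2 <;> rw [flux_const hr h2] <;> simp
  · rw [if_neg fun h2 => h1 (flux_B h hB.sign h2), flux_mul, FM.flux_eq_one hB.sign h1, mul_one]

theorem eqv {r : ℕ} (hB : Str P B (2 * r)) (hr : 1 ≤ r) (hM : 8 * r ≤ M) (z : Tor M) (T : ℕ)
    (hT : T ≤ r) (hf : ∀ f, tdist f z ≤ T → flux (P * B) f ≠ -1) : ∃ s : Tor M → ℝ, IsSign s ∧
      ∀ x i, tdist x z ≤ T → tdist (x + uv M i) z ≤ T →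
        P (x, i) = s x * s (x + uv M i) * (P * B) (x, i) := by
  rcases Nat.eq_zero_or_pos T with rfl | hT0
  · refine ⟨1, fun _ => Or.inl rfl, fun x i h1 h2 => ?_⟩
    have h3 : x + uv M i = x :=
      (tdist_eq_zero (Nat.le_zero.1 h2)).trans (tdist_eq_zero (Nat.le_zero.1 h1)).symm
    have : Fact (1 < M) := ⟨by omega⟩
    have h4 : uv M i = 0 := add_eq_left.1 h3
    fin_cases i <;> simp [uv] at h4
  by_cases h1 : ∃ f, tdist f z ≤ T ∧ flux B f = -1
  · obtain ⟨f, h2, h3⟩ := h1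
    rcases hB.fl f h3 with h4 | h4
    · exact absurd (by rw [flux_mul, h3, flux_const (by omega) h4]; simp) (hf f h2)
    · refine ⟨1, fun _ => Or.inl rfl, fun x i h5 _ => ?_⟩
      have h6 := tdist_triangle x z f
      rw [tdist_comm z] at h6
      simp [h4 (x, i) (by change tdist x f ≤ _; omega)]
  · obtain ⟨s, hs, h2⟩ := (W.R6.matchC_mul (w := P) (B' := 1) (c := z) hB.sign
      (fun _ => Or.inl rfl) hT0 (by omega) fun f h3 => by
        rw [FM.flux_one, FM.flux_eq_one hB.sign fun h4 => h1 ⟨f, h3, h4⟩]).2.1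
    refine ⟨s, hs, fun x i h3 h4 => ?_⟩
    have h5 := h2 x i h3 h4
    rwa [mul_one, show shf z z x = x by rw [shf, prj_lft, add_sub_cancel]] at h5

theorem ne_zero {A : Gauge M} {c : ℝ} (h : ∀ φ, φ ⬝ᵥ φ ≤ c * ((Dm A *ᵥ φ) ⬝ᵥ (Dm A *ᵥ φ))) :
    Zw par0 A 1 ≠ 0 := fun h0 => by
  have h1 := H4.Zw_sq A
  rw [h0, zero_pow two_ne_zero] at h1
  obtain ⟨v, hv, h2⟩ := Matrix.exists_mulVec_eq_zero_iff.2 h1.symm
  have h3 := h v
  rw [h2, dotProduct_zero, mul_zero] at h3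
  exact hv (dotProduct_self_eq_zero.1 (le_antisymm h3 (C.dot_nonneg v)))

theorem bnd {A : Gauge M} {L J n₁ n₂ : ℕ} {c η ε : ℝ} (h : BAll A L J c η n₁ n₂) (hc : 1 ≤ c)
    (hη : 0 < η) (hη1 : η ≤ 1) (h1 : 81 * (n₁ * c * η) ≤ ε / 2) (hL : 8000 * c ^ 2 ≤ L)
    (h2 : (1 + 81 * n₂) * c ^ 2 ≤ ε / 2 * L) : Bnd A L J 8 c ε := by
  have hc2 : 1 ≤ c ^ 2 := one_le_pow₀ hc
  have hL1 : (1 : ℝ) ≤ L := by linarith
  have hL0 : (0 : ℝ) < L := by linarith
  intro j hj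
  rcases Nat.eq_zero_or_pos j with rfl | hj0
  · refine ⟨c, 1 / 8, 0, (6 * L + 1) ^ 2, by linarith, le_rfl, by norm_num, by norm_num, ?_,
      FM.sc_zero L ▸ h.zero⟩
    rw [if_pos rfl, bdl]
    push_cast
    have h3 : ((8 : ℝ) + 1) ^ 2 * (0 * c * c + (6 * L + 1) ^ 2 * c ^ 2) / L ≤ (L : ℝ) ^ 2 / 2 := by
      rw [div_le_iff₀ hL0]
      have h4 : (6 * (L : ℝ) + 1) ^ 2 ≤ 49 * (L : ℝ) ^ 2 := by nlinarith
      have h5 := mul_le_mul_of_nonneg_right h4 (sq_nonneg c)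
      have h6 := mul_le_mul_of_nonneg_left hL (sq_nonneg (L : ℝ))
      nlinarith
    nlinarith
  · refine ⟨η, c / (L : ℝ) ^ 2, n₁ * L, n₂, hη, by linarith, by positivity, ?_, ?_,
      h.pos j hj0 hj⟩
    · rw [← mul_div_assoc, div_le_one (by positivity)]
      nlinarith
    · rw [if_neg hj0.ne', bdl]
      push_cast
      have h3 : (L : ℝ) ^ 2 * (c / (L : ℝ) ^ 2) ^ 2 + (8 + 1) ^ 2 * (n₁ * L * c * η + n₂ * c ^ 2) / L =
          c ^ 2 / L / L + 81 * (n₁ * c * η) + 81 * n₂ * c ^ 2 / L := by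
        field_simp
        ring
      have h4 : c ^ 2 / L / L ≤ c ^ 2 / L := div_le_self (by positivity) hL1
      have h5 : c ^ 2 / L + 81 * n₂ * c ^ 2 / L ≤ ε / 2 := by
        rw [← add_div, div_le_iff₀ hL0]
        linarith
      linarith

theorem lastB_mono {g : Geo} {ℓ : ℕ} {h h' K : ℝ} (H : g.LastB ℓ h K) (hℓ : 1 ≤ ℓ) (hh : 0 < h)
    (h1 : h ≤ h') (hK : 0 ≤ K) : g.LastB ℓ h' K := fun β hβ F hF =>
  (H β hβ F hF).trans (mul_le_mul_of_nonneg_left (RN.pn_mono hℓ hh hβ h1 le_rfl subset_rfl hF) hK)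

end Both

open Both in
theorem mainBoth_of (h : MainStmtD) : MainBoth := by
  classical
  obtain ⟨ε₀, hε₀, h⟩ := h
  intro c n₁ hc
  obtain ⟨L₀, h⟩ := h c 8 hc
  set η₁ := min 1 (ε₀ / (162 * ((n₁ + 1) * c))) with hη₁
  have hη0 : 0 < η₁ := by positivity
  have hη2 : 81 * (n₁ * c * η₁) ≤ ε₀ / 2 := by
    have h1 := min_le_right 1 (ε₀ / (162 * ((n₁ + 1) * c)))
    rw [← hη₁, le_div_iff₀ (by positivity)] at h1
    have h2 : 0 ≤ c * η₁ := by positivity
    nlinarith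
  refine ⟨η₁, hη0, fun n₂ => ⟨max L₀ (max ⌈8000 * c ^ 2⌉₊ ⌈(1 + 81 * n₂) * c ^ 2 / (ε₀ / 2)⌉₊),
    fun L hL ε hε => ?_⟩⟩
  have hL1 : 8000 * c ^ 2 ≤ L :=
    Nat.ceil_le.1 (le_of_max_le_left (le_of_max_le_right hL))
  have hL2 : (1 + 81 * n₂) * c ^ 2 ≤ ε₀ / 2 * L := by
    have h1 := Nat.ceil_le.1 (le_of_max_le_right (le_of_max_le_right hL))
    rwa [div_le_iff₀ (by positivity), mul_comm (L : ℝ)] at h1
  have hL3 : 1 ≤ L := by
    have h1 : (1 : ℝ) ≤ L := by nlinarith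
    exact_mod_cast h1
  obtain ⟨η₀, hη₀, h⟩ := h L (le_of_max_le_left hL) ε hε
  refine ⟨η₀, hη₀, fun R => ?_⟩
  obtain ⟨δ₀, hδ₀, h⟩ := h R
  refine ⟨δ₀, hδ₀, fun q hR hq => ?_⟩
  obtain ⟨Zσ, Zε, z1, z2, z3, h⟩ := h q hR hq
  refine ⟨Zσ, Zε, z1, z2, z3, fun N Λ Γ H hΓ hH => ?_⟩
  choose B h using fun p : ℕ × ℕ => h p.1 p.2 Λ (max Γ H) (le_max_of_le_left hΓ)
  refine ⟨∑ p ∈ range (N + 1) ×ˢ range (N + 1), |B p|, fun ε' hε' => ?_⟩
  choose J₀ h using fun p => h p ε' hε'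
  refine ⟨(range (N + 1) ×ˢ range (N + 1)).sup J₀,
    fun J hJ M _ P S Δ ι _ _ y d n K D h1 h2 h3 hK hl => ?_⟩
  have h8 := FM.eight_le_sc hL3 J
  have hn : n ≤ (univ.filter fun f => flux S f = -1).card := by
    rw [← D.cnt]
    exact card_le_card fun f hf =>
      mem_filter.2 ⟨mem_univ _, flux_B D.P_ok D.str.sign (mem_filter.1 hf).2⟩
  have hp : (n, Fintype.card ι) ∈ range (N + 1) ×ˢ range (N + 1) := by
    have := D.card
    simp only [mem_product, mem_range]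
    omega
  have hZ := ne_zero D.gap
  have hZ' : 0 < |Zw par0 P 1| := abs_pos.2 hZ
  have hlo := D.lo
  have hs : Str P S (2 * (8 * sc L J)) := by
    rw [← mul_assoc]
    exact D.str
  obtain ⟨k1, k2⟩ := h (n, Fintype.card ι) (geoD M (P * S) y d J) P (8 * sc L J)
    ((le_sup hp).trans hJ) rfl
    { ok := ⟨isW_mul D.P_ok D.str.sign, fun k => FM.enSrc_ok _ _⟩
      on := fun _ => rfl
      w := isW D.P_ok
      lo := le_rfl
      hi := Nat.mul_le_mul_left _ (FM.sc_mono hL3 (Nat.le_succ _))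
      Mlo := by change _ ≤ M; omega
      Mhi := D.hi.trans (Nat.mul_le_mul_left _ (by omega))
      sep := D.sep
      card := D.cnt
      fl := fl D.P_ok D.str (by omega)
      eqv := eqv (M := M) hs (by omega) (by omega)
      bnd := bnd D.bd hc hη0 (min_le_left _ _) hη2 hL1 hL2
      bnd' := bnd D.bd0 hc hη0 (min_le_left _ _) hη2 hL1 hL2
      gap := fun φ => (D.gap φ).trans (mul_le_mul_of_nonneg_right
        (by have := le_max_left Γ H; change _ ≤ (max Γ H * sc L J) ^ 2; gcongr) (C.dot_nonneg _))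
      ne := hZ } Δ h1 h3 h2 _
    (lastB_mono hl (by change 1 ≤ sc L J; omega) hH (le_max_right _ _) (by positivity))
  replace k1 := k1.trans_eq (congrArg _ (mul_div_cancel_right₀ K hZ'.ne'))
  replace k2 := k2.trans_eq (congrArg _ (mul_div_cancel_right₀ K hZ'.ne'))
  have e1 : (0 : ℝ) < (sc L J : ℝ) ^ Fintype.card ι := by positivity
  have e2 : (sc L J : ℝ) ^ Fintype.card ι ≤ ((8 * sc L J : ℕ) : ℝ) ^ Fintype.card ι :=
    pow_le_pow_left₀ (by positivity) (by exact_mod_cast (by omega)) _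
  refine ⟨k1.trans (by gcongr), k2.trans (mul_le_mul_of_nonneg_right ?_ hK)⟩
  have e3 : |B (n, Fintype.card ι)| ≤ ∑ p ∈ range (N + 1) ×ˢ range (N + 1), |B p| :=
    single_le_sum (f := fun p => |B p|) (fun _ _ => abs_nonneg _) hp
  exact (div_le_div_of_nonneg_right (le_abs_self _) (e1.le.trans e2)).trans
    (div_le_div₀ ((abs_nonneg _).trans e3) e3 e1 e2)

end Vale.Agent.P144Z
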