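import Vale.Agent.P144D.FD.Step
import Vale.Agent.P144D.W.Main

/-!
The induction over the scales for the corrected flow.
-/

namespace Vale.Agent.P144Z

open Finset Matrix

namespace W.FD

open Vale.Agent.P144Z.FM

variable {g : Geo} {u : Cor g.M}

theorem flowC_succ (L : ℕ) (q : Par) (j : ℕ) :
    g.flowC L q u (j + 1) = g.step j (sc L j) (L * sc L j) 0 (g.flowC L q u j) := by
  rw [← sc_succ]; rfl

theorem csC_succ (L : ℕ) (q : Par) (j : ℕ) (U : Finset g.P) :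
    g.csC L q u (j + 1) U = g.noF (g.intg (sc L j) (L * sc L j) (g.flowC L q u j) U) := by
  rw [← sc_succ]; rfl

/-- The result of the induction. -/
structure EOut (g : Geo) (L : ℕ) (q : Par) (u : Cor g.M) (J : ℕ) (h : ℕ → ℝ) (δ A E : ℝ) :
    Prop where
  df : ∀ j ≤ J, Anch (sc L j) L (g.df (sc L j) (h j) (δ * sc L j / h j ^ 2) (g.flowC L q u j)
    (g.srcSt (g.flowC L q u j).z)) (A / 2 ^ j)
  ex : ∀ j < J, g.ExpId (covP (Dm g.A) (sc L j) (sc L (j + 1))) (g.flowC L q u j)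
  z : ∀ j < J, ∀ k, δ * |(g.flowC L q u (j + 1)).z k - (g.flowC L q u j).z k| ≤ E / 2 ^ j
  intg : ∀ j < J, Anch (sc L (j + 1)) (2 * L) (fun U => g.pn (sc L j) (h j / 2)
    (δ * sc L j / h j ^ 2) U (g.intg (sc L j) (L * sc L j) (g.flowC L q u j) U -
      g.intg (sc L j) (L * sc L j) (g.srcSt (g.flowC L q u j).z) U)) (E / 2 ^ j)

theorem early_ind {L : ℕ} {C δ : ℝ} (hC : 1 ≤ C) (hδ : 0 < δ)
    (hCδ : C * δ ≤ 1) (hg : g.OkW) (hu : u.Ok) {J : ℕ} (hS : g.Steps L J C) {h : ℕ → ℝ}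
    (hh0 : ∀ j, (L : ℝ) ^ 2 ≤ h j) (hh1 : ∀ j < J, h j ≤ h (j + 1))
    (hh2 : ∀ j < J, h (j + 1) ≤ 2 * h j) {q : Par} {a₀ a b : ℝ} (ha₀ : 0 ≤ a₀)
    (ha : 2 * (C * a₀) ≤ a) (hb : 0 ≤ b)
    (hz : 2 * (C * (a + 4 * (C * b) + b)) ≤ δ) (hz0 : ∀ k, |g.z0 q k| ≤ 1)
    (h0 : Anch 8 L (g.df 8 (h 0) (δ * (8 : ℕ) / h 0 ^ 2) (g.initC q u) (g.srcSt (g.z0 q))) a₀)
    (hbf : ∀ j < J, Anch (sc L j) L (g.bf (sc L j) (h j) (g.flowC L q u j)) (b / 2 ^ j / 2 ^ j)) :
    EOut g L q u J h δ (a + 4 * (C * b)) (C * (a + 4 * (C * b) + b)) := by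
  have hCb : 0 ≤ C * b := by positivity
  have ha1 : a₀ ≤ a := by nlinarith
  have ha2 : 0 ≤ a := ha₀.trans ha1
  have hA : a + 4 * (C * b) + b ≤ δ := by nlinarith
  have h0' : Anch (sc L 0) L (g.df (sc L 0) (h 0) (δ * sc L 0 / h 0 ^ 2) (g.flowC L q u 0)
      (g.srcSt (g.flowC L q u 0).z)) a₀ := by
    rw [sc_zero]
    exact h0
  have step0 : ∀ j < J, ∀ D, D ≤ δ → Anch (sc L j) L (g.df (sc L j) (h j) (δ * sc L j / h j ^ 2)
      (g.flowC L q u j) (g.srcSt (g.flowC L q u j).z)) D →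
      (∀ k, |(g.flowC L q u j).z k| ≤ 2) → _ := fun j hj D hD hd hzz =>
    hS j hj (h j) (h (j + 1)) δ (hh0 j) (hh1 j hj) (hh2 j hj) hδ hCδ _ (Geo.wf_flowC hg hu L q j)
      hzz D _ hD
      ((div_pow_le (by positivity) j).trans ((div_pow_le hb j).trans (by linarith))) hd (hbf j hj)
  have hD : ∀ j : ℕ, (a + 4 * (C * b) * (1 - 1 / 2 ^ j)) / 2 ^ j ≤ δ := fun j =>
    (rec_le hCb j).trans ((div_pow_le (by positivity) j).trans (by linarith))
  have hE : ∀ j : ℕ, C * ((a + 4 * (C * b) * (1 - 1 / 2 ^ j)) / 2 ^ j + b / 2 ^ j / 2 ^ j) ≤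
      C * (a + 4 * (C * b) + b) / 2 ^ j := fun j => by
    rw [mul_div_assoc, add_div (a + 4 * (C * b))]
    exact mul_le_mul_of_nonneg_left (add_le_add (rec_le hCb j) (div_pow_le (by positivity) j))
      (by linarith)
  have key : ∀ j ≤ J, Anch (sc L j) L (g.df (sc L j) (h j) (δ * sc L j / h j ^ 2)
      (g.flowC L q u j) (g.srcSt (g.flowC L q u j).z))
      ((a + 4 * (C * b) * (1 - 1 / 2 ^ j)) / 2 ^ j) ∧
      ∀ k, |(g.flowC L q u j).z k| ≤ 2 - 1 / 2 ^ j := by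
    intro j hj
    induction j with
    | zero => exact ⟨anch_le h0' (by simpa using ha1), fun k => (hz0 k).trans (by norm_num)⟩
    | succ j ih =>
      obtain ⟨h1, h2⟩ := ih (by omega)
      have h3 : (0 : ℝ) ≤ 1 / 2 ^ j := by positivity
      have h9 : ∀ k, |(g.flowC L q u j).z k| ≤ 2 := fun k => (h2 k).trans (by linarith)
      obtain ⟨-, s2, s3, -⟩ := step0 j (by omega) _ (hD j) h1 h9
      refine ⟨?_, fun k => ?_⟩
      · rw [← rec_eq]
        rcases Nat.eq_zero_or_pos j with rfl | hj0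
        · have s4 := (step0 0 (by omega) _ (by linarith) h0' h9).2.1
          rw [← flowC_succ, ← sc_succ] at s4
          refine anch_le s4 ?_
          simp only [if_true, pow_zero, div_one, sub_self, mul_zero, add_zero]
          linarith
        · rw [← flowC_succ, ← sc_succ, if_neg hj0.ne'] at s2
          refine anch_le s2 (le_of_eq ?_)
          ring
      · have h4 := (s3 k).trans (hE j)
        rw [← flowC_succ] at h4
        have h5 : C * (a + 4 * (C * b) + b) / 2 ^ j ≤ δ * (1 / 2 ^ (j + 1)) := by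
          rw [pow_succ, div_le_iff₀ (by positivity)]
          field_simp
          linarith
        have h6 := le_of_mul_le_mul_left (h4.trans h5) hδ
        have h7 : (1 : ℝ) / 2 ^ j = 2 * (1 / 2 ^ (j + 1)) := by rw [pow_succ]; field_simp
        have h8 := abs_add_le ((g.flowC L q u (j + 1)).z k - (g.flowC L q u j).z k)
          ((g.flowC L q u j).z k)
        rw [sub_add_cancel] at h8
        linarith [h2 k]
  have step' := fun j (hj : j < J) => step0 j hj _ (hD j) (key j hj.le).1 fun k =>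
    ((key j hj.le).2 k).trans (sub_le_self _ (by positivity))
  refine ⟨fun j hj => anch_le (key j hj).1 (rec_le hCb j), fun j hj => ?_, fun j hj k => ?_,
    fun j hj => ?_⟩
  · rw [sc_succ]; exact (step' j hj).1
  · rw [flowC_succ]; exact ((step' j hj).2.2.1 k).trans (hE j)
  · rw [sc_succ]; exact anch_le (step' j hj).2.2.2 (hE j)

end W.FD

end Vale.Agent.P144Z
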