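import Vale.Agent.P144D.FD.Early

/-!
The induction for critical parameters and for the nearest-neighbour model.
-/

namespace Vale.Agent.P144Z.W.FD

open Finset Matrix Vale.Agent.P144Z.FM

/-- The radii of the induction. -/
structure Rad (L : ℕ) (h : ℕ → ℝ) : Prop where
  h0 : h 0 = (L : ℝ) ^ 2
  lo : ∀ j, (L : ℝ) ^ 2 ≤ h j
  h1 : ∀ j, h j ≤ h (j + 1)
  h2 : ∀ j, h (j + 1) ≤ 2 * h j
  hi : ∀ j, h j ≤ hb L j

/-- All the bounds of the induction. -/
structure EFull (g : Geo) (L : ℕ) (q : Par) (u : Cor g.M) (h : ℕ → ℝ) (δ a : ℝ) : Prop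
    extends EOut g L q u g.J h δ a a where
  init : NormedSpace.exp (∑ U, g.W0C q u U) =
    g.E0 (q.x * q.Z) (NormedSpace.exp (∑ X, g.HinC q u X))
  W0 : Anch 8 (2 * L) (fun U => g.pn 8 (h 0) (δ * (8 : ℕ) / h 0 ^ 2) U (g.W0C q u U - g.Wsrc q U)) a
  bf : ∀ j ≤ g.J, Anch (sc L j) L (g.bf (sc L j) (h j) (g.flowC L q u j)) (a / 2 ^ j / 2 ^ j)

theorem EOut.mono {g : Geo} {L : ℕ} {q : Par} {u : Cor g.M} {J : ℕ} {h : ℕ → ℝ} {δ A E a : ℝ}
    (H : EOut g L q u J h δ A E) (hA : A ≤ a) (hE : E ≤ a) : EOut g L q u J h δ a a :=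
  ⟨fun j hj => anch_le (H.df j hj) (by gcongr), H.ex,
    fun j hj k => (H.z j hj k).trans (by gcongr), fun j hj => anch_le (H.intg j hj) (by gcongr)⟩

theorem le_zero (M : ℕ) [NeZero M] (R : ℕ) : Cor.Le (0 : Cor M) R 0 :=
  ⟨0, fun _ _ => by simp, fun _ h => absurd rfl h, fun _ => by simp⟩

theorem sm_zero (M : ℕ) [NeZero M] (R : ℕ) : Cor.Sm (0 : Cor M) R 0 0 :=
  ⟨0, 0, (add_zero _).symm, le_zero M _, le_zero M _⟩

theorem src_far {L R : ℕ} {g : Geo} {C : ℝ} (hL : 1 ≤ L) (hp : g.PreS L R C) :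
    ∀ k k', k ≠ k' → 8 < tdist (g.src k).y (g.src k').y := fun k k' hk => by
  have := hp.sep.ss k k' hk
  have := eight_le_sc hL g.J
  omega

theorem early_all {L : ℕ} (hL16 : 16 ≤ L) {C : ℝ} (hC : 1 ≤ C) : ∃ δ : ℝ, 0 < δ ∧
    ∃ A : ℝ, 1 ≤ A ∧ ∃ η₀ > 0,
    (∀ η, 0 < η → η ≤ η₀ → ∀ R : ℕ, ∃ δ₀ > 0, ∀ q : Par, q.R = R → Crit L q η δ₀ →
      ∀ (g : Geo) (u : Cor g.M) h, g.PreS L R C → Rad L h → u.Ok → u.Off g.A → u.Sm R η δ₀ →
        EFull g L q u h δ (A * η)) ∧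
    ∀ R (g : Geo) h, g.PreS L R C → Rad L h → EFull g L par0 0 h δ 0 := by
  obtain ⟨Cb, hCb, hbf⟩ := Geo.ag_bfC
  have hL0 : (0 : ℝ) < L := by positivity
  obtain ⟨β₀, hβ₀, C₀, hC₀, hI⟩ :=
    Geo.init_earlyC (2 * L) ((L : ℝ) ^ 2) (by positivity) (by positivity)
  obtain ⟨Cd, hCd, hD⟩ := Geo.init_dfC L ((L : ℝ) ^ 2) (by positivity) (by positivity)
  obtain ⟨δ, hδ, hδ2, hδ3⟩ : ∃ δ : ℝ, 0 < δ ∧ C * δ ≤ 1 ∧
      δ * (8 : ℕ) / ((L : ℝ) ^ 2) ^ 2 ≤ β₀ := by
    refine ⟨min (1 / C) (β₀ / 8), by positivity, ?_, ?_⟩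
    · rw [mul_comm, ← le_div_iff₀ (by positivity)]
      exact min_le_left _ _
    · have h1 : (1 : ℝ) ≤ ((L : ℝ) ^ 2) ^ 2 :=
        one_le_pow₀ (one_le_pow₀ (by exact_mod_cast (by omega : 1 ≤ L)))
      refine (div_le_self (by positivity) h1).trans ?_
      have := min_le_right (1 / C) (β₀ / 8)
      push_cast
      linarith
  set B := Cb * Real.exp L with hB
  have hB0 : 0 ≤ B := by positivity
  set a₀ := 4 * (C₀ + 1) + Cd with ha₀
  have ha0 : 0 ≤ a₀ := by positivity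
  have ha1 : a₀ ≤ C * a₀ := le_mul_of_one_le_left ha0 hC
  set A := C * (2 * (C * a₀) + 4 * (C * B) + B) with hA
  have hA1 : 2 * (C * a₀) + 4 * (C * B) + B ≤ A := le_mul_of_one_le_left (by positivity) hC
  have hCB : 0 ≤ C * B := by positivity
  have main : ∀ (q : Par) (η : ℝ), 0 ≤ η → η ≤ 1 / 20 → 2 * (A * η) ≤ δ → q.Ok → |q.x - tc| ≤ η →
      |q.Z - 1| ≤ η → ∀ R (g : Geo) (u : Cor g.M) h, g.PreS L R C → Rad L h → u.Ok →
      (NormedSpace.exp (∑ U, g.W0C q u U) =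
          g.E0 (q.x * q.Z) (NormedSpace.exp (∑ X, g.HinC q u X)) ∧
        Anch 8 (2 * L) (fun U => g.pn 8 ((L : ℝ) ^ 2) (δ * (8 : ℕ) / ((L : ℝ) ^ 2) ^ 2) U
          (g.W0C q u U - g.Wsrc q U)) ((C₀ + 1) * η)) →
      (∀ j ≤ g.J, Anch (sc L j) L (g.bf (sc L j) (h j) (g.flowC L q u j))
        (B * η / 2 ^ j / 2 ^ j)) → EFull g L q u h δ (A * η) := by
    intro q η hη hη1 hηδ hq hx hZ R g u h hp hr hu hi hb
    have h0 := hD g hp.ok u hu q η hq hx hZ (δ * (8 : ℕ) / ((L : ℝ) ^ 2) ^ 2) _ (by positivity)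
      hp.on (anch_tau hi.2 (fun _ => RN.pn_nonneg _) (by linarith))
    have h1 := early_ind hC hδ hδ2 hp.ok hu hp.st hr.lo (fun j _ => hr.h1 j) (fun j _ => hr.h2 j)
      (q := q) (a₀ := a₀ * η) (a := 2 * (C * a₀) * η) (b := B * η) (by positivity)
      (le_of_eq (by ring)) (by positivity)
      (by rw [hA] at hηδ; linarith) (z0_le hη1 hx hZ)
      (by rw [hr.h0]; exact anch_le h0 (le_of_eq (by rw [ha₀]; ring))) fun j hj => hb j hj.le
    refine ⟨h1.mono (by nlinarith) (by rw [hA]; linarith), hi.1, ?_, fun j hj => ?_⟩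
    · rw [hr.h0]
      exact anch_le hi.2 (mul_le_mul_of_nonneg_right (by linarith) hη)
    · refine anch_le (hb j hj) ?_
      gcongr
      linarith
  have hA0 : 1 ≤ A := by linarith
  refine ⟨δ, hδ, A, hA0, min (1 / 20) (min (δ / (2 * A)) (1 / C₀)), by positivity,
    fun η hη hη0 R => ?_, fun R g h hp hr => ?_⟩
  · obtain ⟨Ci, hCi, hI⟩ := hI R
    have hη1 := hη0.trans (min_le_left _ _)
    have hη2 := hη0.trans ((min_le_right _ _).trans (min_le_left _ _))
    have hη3 := hη0.trans ((min_le_right _ _).trans (min_le_right _ _))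
    rw [le_div_iff₀ (by positivity)] at hη2 hη3
    have e : Ci * (η / (2 * Ci) + η / (2 * Ci)) = η := by field_simp; norm_num
    refine ⟨η / (2 * Ci), by positivity, fun q hR hc g u h hp hr hu hf hs => ?_⟩
    have h2 := hI q hR hc.ok _ _ _ hc.small (by rw [e]; linarith) (by linarith) g hp.ok u hu hs
      hp.on (src_far (by omega) hp) _ (by positivity) hδ3
    refine main q η hη.le hη1 (by linarith) hc.ok hc.x hc.Z R g u h hp hr hu
      ⟨h2.1, anch_le h2.2 (by rw [e]; linarith)⟩ fun j hj => ?_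
    refine anch_mono (hbf L (by omega) q η hc.ok hc.bulk g hp.ok u hu hf (hR ▸ hp.R_le) j
      ((Nat.mul_le_mul_left _ (sc_mono (by omega) hj)).trans hp.M_le))
      (bf_mono (by have := eight_le_sc (L := L) (by omega) j; omega)
        ((pow_pos hL0 2).trans_le (hr.lo j)) (hr.hi j) (Geo.wf_flowC hp.ok hu L q j)) ?_
    rw [div_div, div_eq_mul_one_div, ← div_div]
    exact mul_le_mul_of_nonneg_left (th_pow hL16 j) (by positivity)
  · obtain ⟨Ci, hCi, hI⟩ := hI 0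
    have hc := crit_par0 L 0 0 le_rfl le_rfl
    have h2 := hI par0 rfl hc.ok 0 0 0 hc.small (by simp) (by simp) g hp.ok 0 (Cor.ok_zero _)
      (sm_zero _ _) hp.on (src_far (by omega) hp) _ (by positivity) hδ3
    have := main par0 0 le_rfl (by norm_num) (by linarith) hc.ok hc.x hc.Z R g 0 h hp hr
      (Cor.ok_zero _) ⟨h2.1, anch_le h2.2 (by simp)⟩ fun j _ => by
        rw [Geo.flowC_zero]
        exact anch_le (anch_zero (bf_free (by have := eight_le_sc (L := L) (by omega) j; omega)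
          ((pow_pos hL0 2).trans_le (hr.lo j)) (Geo.free_flow hp.ok L j))) (by simp)
    rwa [mul_zero] at this

variable {L R : ℕ} {g : Geo} {h : ℕ → ℝ} {δ C : ℝ}

theorem Rad.pos (hr : Rad L h) (hL : 1 ≤ L) (j : ℕ) : 0 < h j :=
  (pow_pos (by exact_mod_cast hL) 2).trans_le (hr.lo j)

/-- The flow of the nearest-neighbour model is trivial. -/
theorem flow0 (hL : 1 ≤ L) (hδ : 0 < δ) (hp : g.PreS L R C) (hr : Rad L h)
    (H : EFull g L par0 0 h δ 0) :
    ∀ j ≤ g.J, g.flow L par0 0 j = g.srcSt fun _ => -2 * tc := by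
  have hz : ∀ j ≤ g.J, (g.flow L par0 0 j).z = fun _ => -2 * tc := by
    intro j hj
    induction j with
    | zero =>
      funext k
      change g.z0 par0 k = _
      simp [Geo.z0, hp.on, par0]
    | succ j ih =>
      funext k
      have h1 := H.z j (by omega) k
      rw [zero_div, Geo.flowC_zero, Geo.flowC_zero, ih (by omega)] at h1
      have h2 := le_of_mul_le_mul_left (h1.trans (mul_zero δ).ge) hδ
      exact sub_eq_zero.1 (abs_nonpos_iff.1 h2)
  intro j hj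
  have h1 := H.df j hj
  rw [zero_div, Geo.flowC_zero] at h1
  rw [← hz j hj]
  exact eq_srcSt (by have := eight_le_sc hL j; omega) (hr.pos hL j) (beta_pos hL hδ (hr.pos hL j) j)
    (Geo.wf_flow hp.ok L par0 0 j) (Geo.free_flow hp.ok L j) h1

theorem intg_src (hL : 1 ≤ L) (hp : g.PreS L R C) {j : ℕ} (hj : j < g.J) (z : g.K → ℝ)
    {U : Finset g.P} (hU : ¬ g.Exc U) : g.intg (sc L j) (L * sc L j) (g.srcSt z) U = 0 := by
  have h1 : sc L j ≤ sc L (j + 1) := sc_mono hL (by omega)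
  have h2 : sc L (j + 1) ≤ sc L g.J := sc_mono hL hj
  have h3 := eight_le_sc hL (j + 1)
  rw [← sc_succ, Geo.intg, Geo.Cl_srcSt (ℓ' := sc L (j + 1)) (covP_anti (Vale.Agent.P144Z.C.Dm_anti _) _ _)
    (fun s s' hs => covP_range g.A h1 (by omega) hs)
    (fun k k' hk => by have := hp.sep.ss k k' hk; omega), srcSt_H z hU, map_zero]

theorem early0 (hL : 1 ≤ L) (hδ : 0 < δ) (hp : g.PreS L R C) (hr : Rad L h)
    (H : EFull g L par0 0 h δ 0) : ∀ j ≤ g.J, ∀ U, ¬ g.Exc U → g.cs L par0 j U = 0 := by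
  intro j hj U hU
  cases j with
  | zero =>
    change g.noF (g.W0 par0 U) = 0
    rw [← Geo.W0C_zero]
    rcases U.eq_empty_or_nonempty with rfl | hne
    · rw [R3W.W0C_empty hp.ok (Cor.ok_zero _), map_zero]
    · have h1 := anch_eq_zero H.W0 (fun _ => RN.pn_nonneg _) hne
      rw [Wsrc_eq _ hU, sub_zero] at h1
      have := hr.pos hL 0
      rw [RN.pn_def (by norm_num) this (by positivity)
        (Geo.W0C_mem hp.ok (Cor.ok_zero _) par0 U) h1, map_zero]
  | succ j =>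
    rw [cs_succ, flow0 hL hδ hp hr H j (by omega), intg_src hL hp (by omega) _ hU, map_zero]

/-- The constants are bounded in the norm of the sources. -/
theorem ps_le (hA : IsW g.A) {ℓ : ℕ} {h β : ℝ} (hℓ : 1 ≤ ℓ) (hh : 0 < h) {β' : ℝ} (hβ' : 0 < β')
    (h1 : β' ≤ β) {U : Finset g.P} {F : g.E} (hF : F ∈ g.sub U) :
    g.ps β' U (g.noF F) ≤ g.pn ℓ h β U F := by
  rw [Geo.ps, Geo.pn_noF_eq hA hℓ hh hβ' hF le_rfl one_pos]
  exact (RN.pn_noF hℓ hh hβ' hF).trans
    (RN.pn_mono hℓ hh hβ' le_rfl h1 (Finset.Subset.refl _) hF)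

open Classical in
theorem early1 (hL : 1 ≤ L) (hp : g.PreS L R C) (hr : Rad L h) {q : Par} {u : Cor g.M}
    (hu : u.Ok) {a w : ℝ} (ha : 0 ≤ a) (H : EFull g L q u h δ a) (hw : 0 < w)
    (hwh : ∀ j, w * L * h j ^ 2 ≤ δ) : ∀ j ≤ g.J, Anch (sc L j) (2 * L)
      (fun U => if g.Exc U then 0 else g.ps (w * sc L j) U (g.csC L q u j U)) (2 * a / 2 ^ j) := by
  have hL' : (1 : ℝ) ≤ L := by exact_mod_cast hL
  have hs : ∀ j, (0 : ℝ) < sc L j := fun j => by have := eight_le_sc hL j; positivity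
  intro j hj
  cases j with
  | zero =>
    rw [sc_zero]
    refine anch_mono H.W0 (fun U => ?_) (by rw [pow_zero, div_one]; linarith)
    split_ifs with hU
    · exact RN.pn_nonneg _
    · rw [Wsrc_eq _ hU, sub_zero]
      have := hr.pos hL 0
      refine ps_le hp.ok.sign (by norm_num) this (by positivity) ?_ (Geo.W0C_mem hp.ok hu q U)
      rw [le_div_iff₀ (by positivity)]
      have h1 : w * h 0 ^ 2 ≤ w * L * h 0 ^ 2 := by
        rw [mul_assoc]
        exact mul_le_mul_of_nonneg_left (le_mul_of_one_le_left (by positivity) hL') hw.le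
      have := hwh 0
      push_cast
      linarith
  | succ j =>
    refine anch_mono (H.intg j (by omega)) (fun U => ?_) (by rw [pow_succ]; field_simp; rfl)
    split_ifs with hU
    · exact RN.pn_nonneg _
    · rw [intg_src hL hp (by omega) _ hU, sub_zero, csC_succ]
      have := hr.pos hL j
      refine ps_le hp.ok.sign (by have := eight_le_sc hL j; omega) (by positivity)
        (mul_pos hw (hs _)) ?_
        ((Geo.wf_flowC hp.ok hu L q j).Cl_mem (covP_anti (Vale.Agent.P144Z.C.Dm_anti _) _ _) U)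
      rw [le_div_iff₀ (by positivity), sc_succ]
      push_cast
      have := mul_le_mul_of_nonneg_right (hwh j) (hs j).le
      linarith

/-- The coefficient of a source is universal. -/
theorem z_eq (hL : 8 ≤ L) {q : Par} (hq : q.Ok) (hp : g.PreS L q.R C) {u : Cor g.M} (hu : u.Ok)
    (hf : u.Off g.A) {j : ℕ} (hj : j ≤ g.J) (k : g.K) : (g.flowC L q u j).z k = zr L q j := by
  have h1 : sc L j ≤ sc L g.J := sc_mono (by omega) hj
  have h2 := eight_le_sc (L := L) (by omega) j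
  have h3 := hp.M_le
  have hR : 16 * (q.R + 1) ≤ mr L q.R j := by unfold mr; omega
  have hM : 16 * sc L j ≤ mr L q.R j := by unfold mr; omega
  have hen := (hp.ok.src k).en (hp.on k)
  have key : ((gr L q.R j (g.src k).dir).flow L q 0 j).z () = (g.flowC L q u j).z k := by
    rw [← Geo.flowC_zero]
    refine Geo.ag_zC (c := (g.src k).y) (c' := 0) (T := 3 * sc L j) hL hp.ok
      (geo1_ok _ _ _ _).okW hu (Cor.ok_zero _) hq hp.R_le hR
      (R6.matchC_flat hp.ok.sign hf (geo1_ok _ _ _ _).sign (by omega) (by omega)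
        (by change _ ≤ mr L q.R j; omega) (flat_mono (hp.sep.fs k) (by omega))
        fun f _ => flux_one _) j
      ⟨?_, hen.1.symm, hen.2.symm, (hp.on k).symm, rfl, fun i hi => ?_⟩ (hp.on k)
      (by rw [tdist_self, zero_add])
    · change (0 : Tor (mr L q.R j)) = _
      simp [shf, lft, prj]
      rfl
    · change _ ↔ i < j
      omega
  rw [← key]
  obtain h | h : (g.src k).dir = 0 ∨ (g.src k).dir = 1 := by
    generalize (g.src k).dir = d
    fin_cases d <;> simp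
  · rw [h]; rfl
  · rw [h]; exact Geo.ag_dir hL hq _ hR j j hM 0

end Vale.Agent.P144Z.W.FD
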