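import Vale.Agent.P144Z.FM.Main

/-!
The bounds on the flow in the plane, with the limit of the coefficient of the sources.
-/

namespace Vale.Agent.P144Z

open Finset Matrix

theorem Geo.FlowB.mono {g : Geo} {L : ℕ} {q : Par} {N : ℕ} {Z w a b a' b' : ℝ}
    (H : g.FlowB L q N Z w a b) (ha : a ≤ a') (hb : b ≤ b') : g.FlowB L q N Z w a' b' :=
  ⟨H.inv, H.conv, H.conv0, fun j hj => FM.anch_le (H.early j hj) (by gcongr), H.early0,
    fun j h1 h2 => FM.anch_le (H.late j h1 h2) (by gcongr),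
    fun j h1 h2 => FM.anch_le (H.late0 j h1 h2) (by gcongr), H.last.trans (by gcongr),
    H.last0.trans hb⟩

open FM

set_option maxHeartbeats 800000 in
theorem flowU : ∃ L₀ : ℕ, 16 ≤ L₀ ∧ ∀ L ≥ L₀, ∃ C : ℝ, 1 ≤ C ∧ ∃ η₀ > 0, ∀ η, 0 < η → η ≤ η₀ →
    ∀ R : ℕ, ∃ δ₀ > 0, ∀ q : Par, q.R = R → Crit L q η δ₀ → ∃ Zε : ℝ, |Zε - 1| ≤ C * η ∧
      |Zε * (-2 * tc)| ≤ 2 ∧ (∀ j, |zr L q j - Zε * (-2 * tc)| ≤ 1 / 2 ^ j) ∧ ∀ N₀ Λ : ℕ, 1 ≤ Λ →
      ∃ w > 0, ∃ J₀ : ℕ, ∀ J ≥ J₀, ∀ r : ℕ, 8 * sc L J ≤ r → r ≤ 8 * sc L (J + 1) → ∃ M₀ : ℕ,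
        ∀ g : Geo, g.J = J → g.Nice N₀ Λ r → M₀ ≤ g.M → ∀ N : ℕ, 16 * sc L N ≤ g.M →
          g.M ≤ 16 * sc L (N + 1) → g.FlowB L q N Zε w (C * η) C := by
  obtain ⟨L₁, hL₁, hE⟩ := FM.early_all
  obtain ⟨L₂, hS⟩ := exists_steps
  obtain ⟨C₀, -, hgap⟩ := gap_anti
  obtain ⟨L₃, hlast⟩ := Geo.step_last C₀
  obtain ⟨Cs, hCs, hsrc⟩ := Geo.df_srcSt
  refine ⟨max L₁ (max L₂ L₃), hL₁.trans (le_max_left _ _), fun L hL => ?_⟩
  have hL1 : L₁ ≤ L := (le_max_left _ _).trans hL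
  have hL0 : (0 : ℝ) < L := by exact_mod_cast (by omega : 0 < L)
  obtain ⟨CG, hCG, hS⟩ := hS L ((le_max_left _ _).trans ((le_max_right _ _).trans hL))
  obtain ⟨CL, hCL, hlast⟩ := hlast L ((le_max_right _ _).trans ((le_max_right _ _).trans hL))
  set C := max CG CL with hC
  have hC1 : 1 ≤ C := hCG.trans (le_max_left _ _)
  set c := Cs * Real.exp L with hc
  have hc0 : 0 < c := by positivity
  obtain ⟨δ, hδ, hδm, A, hA, η₀, hη₀, hη₁, hE, hE0⟩ := hE L hL1 (1 / (C * (c * 2))) (by positivity)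
  have hcδ : C * (c * δ * 2) ≤ 1 := by
    rw [le_div_iff₀ (by positivity)] at hδm
    linarith
  set T := C * ((1 + 2 * c) * A + 4 * (C * A) + A) with hT
  have hT0 : 0 < T := by positivity
  have hAδ : 0 < A / δ := by positivity
  refine ⟨2 * T + 3 * (A / δ) + 7, by linarith, min η₀ (min (1 / T) (δ / (4 * A))), by positivity,
    fun η hη hηle R => ?_⟩
  have hη1 : η ≤ η₀ := hηle.trans (min_le_left _ _)
  have hη2 : η * T ≤ 1 :=
    (le_div_iff₀ hT0).1 (hηle.trans ((min_le_right _ _).trans (min_le_left _ _)))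
  have hη3 : η * (4 * A) ≤ δ :=
    (le_div_iff₀ (by positivity)).1 (hηle.trans ((min_le_right _ _).trans (min_le_right _ _)))
  obtain ⟨δ₀, hδ₀, hE⟩ := hE η hη hη1 R
  refine ⟨δ₀, hδ₀, fun q hR hq => ?_⟩
  subst hR
  obtain ⟨z, hz1, hz2⟩ := exists_zinf (L := L) (by omega) hq.ok hδ (hE q rfl hq)
  have htc := tc_lo
  have htc' := tc_hi
  have hx := abs_le.1 hq.x
  have hZ := abs_le.1 hq.Z
  have hxZ : |q.x * q.Z - tc| ≤ 5 / 2 * η := by
    have := hq.ok.Z_hi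
    have := hq.ok.Z_lo
    rw [abs_le]; constructor <;> nlinarith
  have e1 : 2 * (A * η) / δ = 2 * (A / δ * η) := by ring
  have h1 : 2 * (A * η) / δ ≤ 1 / 2 := by rw [div_le_iff₀ hδ]; linarith
  have hz5 : |z| ≤ 2 := by
    have := abs_le.1 hz1
    have := abs_le.1 hxZ
    rw [abs_le]; constructor <;> linarith
  have hz3 := abs_le.1 hz1
  have hz4 := abs_le.1 hxZ
  have e0 : z / (-2 * tc) * (-2 * tc) = z := div_mul_cancel₀ _ (by linarith)
  refine ⟨z / (-2 * tc), ?_, by rwa [e0], fun j => ?_, fun N₀ Λ hΛ => ?_⟩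
  · have h2 : 0 ≤ A / δ * η := by positivity
    rw [div_sub_one (by linarith), abs_div, div_le_iff₀ (abs_pos.2 (by linarith)),
      abs_of_neg (by linarith : -2 * tc < 0), abs_le]
    have h3 : 0 ≤ T * η := by positivity
    constructor <;> nlinarith
  · rw [e0]
    exact (hz2 _ j _ (pre_gr (L := L) (by omega) q.R j) ()).trans (by gcongr; linarith)
  obtain ⟨p₁, p₂, γ, g0, g1, g2, hS⟩ := hS N₀ Λ hΛ
  refine ⟨δ / (L * ((L : ℝ) ^ 2 * 2 ^ p₂) ^ 2), by positivity, max p₂ 1, fun J hJ r hr1 hr2 => ?_⟩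
  have hJ1 : p₂ ≤ J := (le_max_left _ _).trans hJ
  have hJ2 : 1 ≤ J := (le_max_right _ _).trans hJ
  obtain ⟨M₁, hgap⟩ := hgap Λ (Λ * r)
  refine ⟨max M₁ (max (16 * sc L J + 1) (16 * (q.R + 1))), fun g hgJ hg hM N hN hN' => ?_⟩
  have hM1 : 16 * sc L J + 1 ≤ g.M := (le_max_left _ _).trans ((le_max_right _ _).trans hM)
  have hp := pre_hr (p₁ := p₁) (R := q.R) (by omega : 1 ≤ L) g0 g1 g2 hJ1 hg hgJ hr1 (by omega)
    ((le_max_right _ _).trans ((le_max_right _ _).trans hM))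
  have hJN : J ≤ N := by
    by_contra hn
    have := sc_mono (L := L) (by omega) (by omega : N + 1 ≤ J)
    omega
  obtain ⟨A', hA', hanti⟩ := hg.cl
  have hgap := hgap g.M ((le_max_left _ _).trans hM) g.A A' 0 r hA' (r_ge (by omega) hJ2 hr1)
    (Nat.le_mul_of_pos_left _ hΛ) le_rfl hanti
  simp only [RN.l2sq_univ] at hgap
  have hβ := beta_pos (by omega : 1 ≤ L) hδ (hp.pos (by omega) J) J
  have h8 := fun j => eight_le_sc (L := L) (by omega) j
  have e2 : C * ((1 + 2 * c) * (A * η) + 4 * (C * (A * η)) + A * η) = η * T := by rw [hT]; ring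
  refine flowB (C := C) (c := c) (by omega) hδ hp hgJ hJN hN hC1 hc0.le hcδ
    (fun j hj hj' => (hS J hJ1 hJ2 r hr1 hr2 g hgJ hg _ hβ j hj
      ((Nat.mul_le_mul_left _ (sc_mono (by omega) hj')).trans hN)).mono (by linarith)
        (le_max_left _ _))
    (LastOK.mono (hlast g hg.ok.sign (sc L N) (h8 N) (by omega) (by rwa [← sc_succ])
      (fun v => by rw [← mulVec_mulVec]; exact hgap _) _ _ (hp.lo N) hβ) (by linarith)
        (le_max_right _ _))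
    (hsrc L g hg.ok.sign (sc L J) (h8 J) (by omega) (sep_mono hp.sep (by omega)) _ δ
      (hp.pos (by omega) J) hδ)
    (fun v hv => ?_) (by positivity) (hE q rfl hq g J _ hp) (hE0 _ g J _ hp) (by positivity)
    (fun j => ?_) hz5 (hz2 g J _ hp) (by rwa [e2]) ?_ (by linarith)
  · have := hgap v
    rw [hv, dotProduct_zero, mul_zero] at this
    exact dotProduct_self_eq_zero.1 (le_antisymm this (Vale.Agent.P144Z.C.dot_nonneg v))
  · have h2 := hr_le_top (L := L) (p₁ := p₁) (p₂ := p₂) (J := J) g0 g1 j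
    have h3 := hp.pos (by omega) j
    rw [div_mul_eq_mul_div, div_mul_eq_mul_div, div_le_iff₀ (by positivity), mul_assoc]
    gcongr
  · rw [e2]
    have h2 : 0 ≤ A / δ * η := by positivity
    nlinarith

end Vale.Agent.P144Z
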