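import Vale.Agent.P144D.FD.Early2
import Vale.Agent.P144D.FD.Plane
import Vale.Agent.P144D.FD.Defs
import Vale.Agent.P144D.R8.Main

/-!
The bounds on the corrected flow.
-/

namespace Vale.Agent.P144Z

open Finset Matrix

namespace W.FD

open Vale.Agent.P144Z.FM

theorem rad_min {L : ℕ} (hL : 1 ≤ L) (p : ℕ) : Rad L fun j => (L : ℝ) ^ 2 * 2 ^ min j p := by
  have h1 : (1 : ℝ) ≤ L := by exact_mod_cast hL
  have h2 : (0 : ℝ) ≤ (L : ℝ) ^ 2 := by positivity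
  refine ⟨by simp, fun j => le_mul_of_one_le_right h2 (one_le_pow₀ one_le_two),
    fun j => mul_le_mul_of_nonneg_left (pow_le_pow_right₀ one_le_two (by omega)) h2, fun j => ?_,
    fun j => mul_le_mul (pow_le_pow_right₀ h1 (by norm_num))
      (pow_le_pow_right₀ one_le_two (min_le_left _ _)) (by positivity) (by positivity)⟩
  rw [mul_left_comm, ← pow_succ']
  exact mul_le_mul_of_nonneg_left (pow_le_pow_right₀ one_le_two (by omega)) h2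

variable {g : Geo} {ℓ : ℕ} {h β : ℝ}

theorem sum_bE_mem (z : g.K → ℝ) : ∑ k, z k • g.bE k ∈ g.sub univ :=
  sum_mem fun k _ => Subalgebra.smul_mem _ (Geo.sub_mono (subset_univ _) (Geo.bE_mem k)) _

theorem sum_H_mem {s : g.St} (hs : g.Wf s) : ∑ X, s.H X ∈ g.sub univ :=
  sum_mem fun X _ => Geo.sub_mono (subset_univ _) (hs.H_mem X)

theorem sum_H_src (z : g.K → ℝ) : ∑ X, (g.srcSt z).H X = ∑ k, z k • g.bE k := by
  rw [Vale.Agent.P144Z.I2.sum_H]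
  simp [Geo.srcSt]

theorem pn_sum_H (hℓ : 1 ≤ ℓ) (hh : 0 < h) (hβ : 0 < β) {Λ : ℕ} (hM : g.M ≤ Λ * ℓ) {τ D b : ℝ}
    (hτ : 0 ≤ τ) {s : g.St} (hs : g.Wf s) {z : g.K → ℝ}
    (aD : Anch ℓ τ (g.df ℓ h β s (g.srcSt z)) D) (ab : Anch ℓ τ (g.bf ℓ h s) b) :
    g.pn ℓ h β univ (∑ X, s.H X - ∑ k, z k • g.bE k) ≤ (32 * Λ + 1) ^ 2 * (D + b) := by
  classical
  obtain ⟨w', f'⟩ := Geo.wf_srcSt (g := g) z
  have a1 : Anch ℓ τ (fun X => g.pn ℓ h β X (s.H X - (g.srcSt z).H X)) (D + b) :=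
    anch_mono (R8L.anch_add aD ab) (R8L.pn_H_sub hℓ hh hβ hs f') le_rfl
  have s1 := R8L.sum_all (L := Λ) hℓ (hM.trans (by omega)) hτ (fun X => RN.pn_nonneg _) a1
  rw [← sum_H_src, ← sum_sub_distrib, ← sum_filter_of_ne (p := fun X : Finset g.P => X.Nonempty)
    fun X _ hX => nonempty_iff_ne_empty.2 fun h0 => hX (by
      rw [h0, hs.H_empty, w'.H_empty, sub_zero])]
  exact (RN.pn_sum hℓ hh hβ _ _).trans ((sum_le_sum fun X _ => RN.pn_mono hℓ hh hβ le_rfl le_rfl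
    (subset_univ _) (sub_mem (hs.H_mem X) (w'.H_mem X))).trans s1)

theorem stepD_mono {L j : ℕ} {C C' ρ ρ' : ℝ} (H : g.StepD L j C ρ) (h1 : C ≤ C')
    (h2 : ρ ≤ ρ') : g.StepD L j C' ρ' := by
  intro h h' δ a1 a2 a3 a4 a5 s hs hz D b b1 b2 aD ab
  have hD := G.anch_nonneg (df_nonneg _ _) aD
  have hb := G.anch_nonneg (bf_nonneg _) ab
  obtain ⟨k1, k2, k3, k4⟩ := H h h' δ a1 a2 a3 a4 (by nlinarith) s hs hz D b b1 b2 aD ab
  exact ⟨k1, anch_le k2 (by gcongr), fun k => (k3 k).trans (by gcongr), anch_le k4 (by gcongr)⟩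

/-- The steps contract when the boundary is good. -/
theorem steps : ∃ ε₀ > 0, ∀ (c : ℝ) (m : ℕ), 1 ≤ c → ∃ L₀ : ℕ, ∀ L ≥ L₀, ∃ C : ℝ, 1 ≤ C ∧
    ∀ (g : Geo) (Λ : ℕ), g.PreD L m Λ c ε₀ → g.Steps L g.J C := by
  obtain ⟨C₀, hC₀, H⟩ := Geo.R8.step_dom
  refine ⟨1 / (4 * C₀), by positivity, fun c m hc => ?_⟩
  obtain ⟨L₀, H⟩ := H c m hc
  refine ⟨max L₀ 1, fun L hL => ?_⟩
  have hL1 : 1 ≤ L := le_of_max_le_right hL
  obtain ⟨C, hC, H⟩ := H L (le_of_max_le_left hL)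
  have h0 : 0 ≤ C₀ * (L : ℝ) ^ 2 := by positivity
  refine ⟨C + C₀ * (L : ℝ) ^ 2, by linarith, fun g Λ hg j hj => ?_⟩
  obtain ⟨η, κ, n₁, n₂, a1, a2, a3, a4, a5, a6⟩ := hg.bnd j hj
  have h1 : L * sc L j ≤ sc L g.J := by rw [← sc_succ]; exact sc_mono hL1 hj
  refine stepD_mono (H g hg.ok.sign hg.on j (sc L j) hj (eight_le_sc hL1 j)
    (by have := hg.lo; omega) (Geo.R8.sepW_mono hg.sep (by omega)) η κ n₁ n₂ a6 a1 a2 a3 a4)
    (by linarith) ?_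
  have h2 := mul_le_mul_of_nonneg_left a5 (by linarith : 0 ≤ C₀)
  split_ifs at h2 ⊢
  · linarith
  · rw [show C₀ * (1 / (4 * C₀)) = 1 / 4 by field_simp] at h2
    linarith

/-- The bounds on the corrected flow, when the steps contract. -/
theorem flowS {L : ℕ} (hL : 16 ≤ L) {C₁ : ℝ} (hC : 1 ≤ C₁) : ∃ C : ℝ, 1 ≤ C ∧ ∃ η₀ > 0, ∀ η, 0 < η →
    η ≤ η₀ → ∀ R : ℕ, ∃ δ₀ > 0, ∀ q : Par, q.R = R → Crit L q η δ₀ → ∀ Z : ℝ,
      |Z * (-2 * tc)| ≤ 2 → (∀ j, |zr L q j - Z * (-2 * tc)| ≤ 1 / 2 ^ j) → ∀ (Λ : ℕ) (h : ℝ),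
      0 < h → ∃ w > 0, ∃ b > 0, ∃ J₀ : ℕ, ∀ g : Geo, J₀ ≤ g.J → g.PreS L R C₁ →
        g.M ≤ Λ * sc L g.J → ∀ u : Cor g.M, u.Ok → u.Off g.A → u.Sm R η δ₀ →
          g.FlowD L q u Z w (C * η) b h := by
  obtain ⟨Cl, hCl, hloc⟩ := Geo.pn_local
  obtain ⟨Cs, hCs, hsrc⟩ := Geo.R8.df_srcSt
  have hL1 : 1 ≤ L := by omega
  have hL0 : (0 : ℝ) < L := by exact_mod_cast hL1
  have hL' : (1 : ℝ) ≤ L := by exact_mod_cast hL1
  obtain ⟨δ, hδ, A, hA, η₂, hη₂, hE, hE0⟩ := early_all hL hC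
  refine ⟨2 * A, by linarith, η₂, hη₂, fun η hη hη0 R => ?_⟩
  obtain ⟨δ₂, hδ₂, hE⟩ := hE η hη hη0 R
  refine ⟨δ₂, hδ₂, fun q hR hq Z hz1 hz2 Λ H hH => ?_⟩
  subst hR
  obtain ⟨p, hp⟩ := pow_unbounded_of_one_lt H (one_lt_two (α := ℝ))
  have hr := rad_min hL1 p
  have h2 : (1 : ℝ) ≤ (L : ℝ) ^ 2 := one_le_pow₀ hL'
  set h := (L : ℝ) ^ 2 * 2 ^ p with hh
  have hh0 : 0 < h := by positivity
  have hHh : H ≤ h := hp.le.trans (le_mul_of_one_le_left (by positivity) h2)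
  obtain ⟨w, hw0, hw1, hw2⟩ : ∃ w > 0, w * L * h ^ 2 ≤ δ ∧ 2 * (Cl * w * h ^ 2) ≤ 1 := by
    refine ⟨min (δ / (L * h ^ 2)) (1 / (2 * Cl * h ^ 2)), by positivity, ?_, ?_⟩
    · rw [mul_assoc, ← le_div_iff₀ (by positivity)]
      exact min_le_left _ _
    · have := min_le_right (δ / (L * h ^ 2)) (1 / (2 * Cl * h ^ 2))
      rw [le_div_iff₀ (by positivity)] at this
      linarith
  refine ⟨w, hw0, (32 * Λ + 1) ^ 2 * (2 * (A * η) + Cs * Real.exp L * δ), by positivity, p,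
    fun g hJ hg hM u hu hf hs => ?_⟩
  have H1 := hE q rfl hq g u _ hg hr hu hf hs
  have H0 := hE0 _ g _ hg hr
  have hwh : ∀ j, w * L * ((L : ℝ) ^ 2 * 2 ^ min j p) ^ 2 ≤ δ := fun j => by
    have h3 : (2 : ℝ) ^ min j p ≤ 2 ^ p := pow_le_pow_right₀ one_le_two (min_le_right _ _)
    refine le_trans ?_ hw1
    rw [hh]
    gcongr
  have h8 := eight_le_sc hL1 g.J
  have hs0 : (0 : ℝ) < sc L g.J := by positivity
  have hd := H1.df g.J le_rfl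
  have hb := H1.bf g.J le_rfl
  simp only [min_eq_right hJ] at hd hb
  have hβ := beta_pos hL1 hδ hh0 g.J
  have hwβ : w * sc L g.J ≤ δ * sc L g.J / h ^ 2 := by
    rw [le_div_iff₀ (by positivity), mul_right_comm]
    refine mul_le_mul_of_nonneg_right (le_trans ?_ hw1) hs0.le
    rw [mul_assoc]
    exact mul_le_mul_of_nonneg_left (le_mul_of_one_le_left (by positivity) hL') hw0.le
  have wf := Geo.wf_flowC hg.ok hu L q g.J
  have hAη : 0 ≤ A * η := by positivity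
  have hM4 : 4 * sc L g.J ≤ g.M := by have := hg.M_le; omega
  refine ⟨⟨H1.init, H1.ex⟩, ⟨H0.init, H0.ex⟩, fun j hj => anch_le
    (early1 hL1 hg hr hu hAη H1 hw0 hwh j hj) (le_of_eq (by ring)), early0 hL1 hδ hg hr H0,
    by rw [flow0 hL1 hδ hg hr H0 _ le_rfl, sum_H_src], ?_, fun k => ?_⟩
  · refine (RN.pn_mono (by omega) hH (by positivity) hHh hwβ subset_rfl
      (sub_mem (sum_H_mem wf) (sum_bE_mem fun _ => Z * (-2 * tc)))).trans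
      ((pn_sum_H (by omega) hh0 hβ hM hL0.le wf (hsrc L g hg.ok.sign _ h8 hM4
        (Geo.R8.sepW_mono hg.sep (by omega)) h δ hh0 hδ _ wf _ (fun _ => Z * (-2 * tc))
        (1 / 2 ^ g.J) _ (by positivity)
        (fun k => by rw [z_eq (by omega) hq.ok hg hu hf le_rfl]; exact hz2 _) hd) hb).trans ?_)
    have h3 : A * η / 2 ^ g.J / 2 ^ g.J ≤ A * η / 2 ^ g.J := div_pow_le (by positivity) _
    rw [mul_div_assoc (((32 : ℝ) * Λ + 1) ^ 2)]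
    refine mul_le_mul_of_nonneg_left ?_ (sq_nonneg _)
    have h4 : (2 * (A * η) + Cs * Real.exp L * δ) / 2 ^ g.J =
        A * η / 2 ^ g.J + Cs * Real.exp L * δ * (1 / 2 ^ g.J) + A * η / 2 ^ g.J := by ring
    linarith
  · have hβ' : 0 < w * (sc L g.J : ℝ) := mul_pos hw0 hs0
    have h3 := (hloc g hg.ok.sign _ h _ h8 hM4 hh0 hβ' _
      (flat_mono (hg.sep.fs k) (by omega))).2.2.2 k rfl
    rw [show Cl * (w * sc L g.J) * h ^ 2 / sc L g.J = Cl * w * h ^ 2 by field_simp] at h3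
    rw [RN.pn_smul (by omega) hH hβ']
    exact (mul_le_mul hz1 ((RN.pn_mono (by omega) hH hβ' hHh le_rfl (subset_univ _)
      (Geo.bE_mem k)).trans h3) (RN.pn_nonneg _) zero_le_two).trans hw2

end W.FD

open W.FD FM in
theorem flowStmtD : FlowStmtD := by
  obtain ⟨ε₀, hε₀, hS⟩ := steps
  obtain ⟨L₁, hL₁, hP⟩ := flowU
  refine ⟨ε₀, hε₀, fun c m hc => ?_⟩
  obtain ⟨L₂, hS⟩ := hS c m hc
  refine ⟨max L₁ L₂, fun L hL => ?_⟩
  have hL1 : L₁ ≤ L := le_of_max_le_left hL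
  obtain ⟨C₁, hC₁, hS⟩ := hS L (le_of_max_le_right hL)
  obtain ⟨C, hC, η₁, hη₁, hP⟩ := hP L hL1
  obtain ⟨C', hC', η₂, hη₂, hD⟩ := flowS (L := L) (by omega) hC₁
  refine ⟨C + C', by linarith, min η₁ η₂, by positivity, fun η hη hη0 R => ?_⟩
  obtain ⟨δ₁, hδ₁, hP⟩ := hP η hη (hη0.trans (min_le_left _ _)) R
  obtain ⟨δ₂, hδ₂, hD⟩ := hD η hη (hη0.trans (min_le_right _ _)) R
  refine ⟨min δ₁ δ₂, by positivity, fun q hR hq => ?_⟩
  obtain ⟨Z, z1, z2, z3, hP⟩ :=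
    hP q hR ⟨hq.ok, hq.small.trans (min_le_left _ _), hq.bulk, hq.x, hq.Z⟩
  have e1 : C * η ≤ (C + C') * η := by nlinarith
  have e2 : C' * η ≤ (C + C') * η := by nlinarith
  refine ⟨Z, z1.trans e1, fun N₀ Λ hΛ => ?_, fun Λ h hh => ?_⟩
  · obtain ⟨w, hw, J₀, hP⟩ := hP N₀ Λ hΛ
    refine ⟨w, hw, J₀, fun J hJ r h1 h2 => ?_⟩
    obtain ⟨M₀, hP⟩ := hP J hJ r h1 h2
    exact ⟨M₀, fun g a1 a2 a3 N a4 a5 => (hP g a1 a2 a3 N a4 a5).mono e1 (by linarith)⟩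
  · obtain ⟨w, hw, b, hb, J₀, hD⟩ :=
      hD q hR ⟨hq.ok, hq.small.trans (min_le_right _ _), hq.bulk, hq.x, hq.Z⟩ Z z2 z3 Λ h hh
    refine ⟨w, hw, b, hb, max J₀ R, fun g hJ hg u hu hf ⟨c₁, c₂, e, k1, b', k2, k3, k4⟩ => ?_⟩
    have h1 : R < 2 ^ R := Nat.lt_two_pow_self
    have h2 : 2 ^ R ≤ L ^ g.J := (Nat.pow_le_pow_left (by omega) R).trans
      (Nat.pow_le_pow_right (by omega) (le_of_max_le_right hJ))
    have h3 := hg.lo
    have H := hD g (le_of_max_le_left hJ) ⟨hg.ok, hg.on, h3, by unfold sc at h3; omega, hg.sep,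
      hS g Λ hg⟩ hg.hi u hu hf ⟨c₁, c₂, e, k1, b', k2, k3, fun x => (k4 x).trans (min_le_right _ _)⟩
    exact ⟨H.conv, H.conv0, fun j hj => anch_le (H.early j hj) (by gcongr), H.early0, H.flow0,
      H.last, H.size⟩

end Vale.Agent.P144Z
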