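import Vale.Agent.P144Z.FM.Zinf
import Vale.Agent.P144D.W.Agree
import Vale.Agent.P144D.R8.Defs

/-!
The bounds on the corrected flow below the distance of the defects: definitions.
-/

namespace Vale.Agent.P144Z

open Finset Matrix

/-- The early step at the scale `j`, with the contraction factor `ρ`. -/
def Geo.StepD (g : Geo) (L j : ℕ) (C ρ : ℝ) : Prop :=
  ∀ h h' δ : ℝ, (L : ℝ) ^ 2 ≤ h → h ≤ h' → h' ≤ 2 * h → 0 < δ → C * δ ≤ 1 →
    ∀ s : g.St, g.Wf s → (∀ k, |s.z k| ≤ 2) → ∀ D b : ℝ, D ≤ δ → b ≤ δ →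
    Anch (sc L j) L (g.df (sc L j) h (δ * sc L j / h ^ 2) s (g.srcSt s.z)) D →
    Anch (sc L j) L (g.bf (sc L j) h s) b →
      g.ExpId (covP (Dm g.A) (sc L j) (L * sc L j)) s ∧
      Anch (L * sc L j) L (g.df (L * sc L j) h' (δ * (L * sc L j : ℕ) / h' ^ 2)
        (g.step j (sc L j) (L * sc L j) 0 s)
        (g.srcSt (g.step j (sc L j) (L * sc L j) 0 s).z)) (ρ * D + C * b) ∧
      (∀ k, δ * |(g.step j (sc L j) (L * sc L j) 0 s).z k - s.z k| ≤ C * (D + b)) ∧
      Anch (L * sc L j) (2 * L) (fun U => g.pn (sc L j) (h / 2) (δ * sc L j / h ^ 2) U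
        (g.intg (sc L j) (L * sc L j) s U - g.intg (sc L j) (L * sc L j) (g.srcSt s.z) U))
        (C * (D + b))

/-- All the steps below the scale `J` are bounded, and all but the first one contract. -/
def Geo.Steps (g : Geo) (L J : ℕ) (C : ℝ) : Prop :=
  ∀ j < J, g.StepD L j C (if j = 0 then C else 1 / 2)

namespace Geo

variable (g : Geo)

/-- The geometries of the flow. -/
structure PreS (L R : ℕ) (C : ℝ) : Prop where
  ok : g.OkW
  on : ∀ k, (g.src k).on = true
  M_le : 16 * sc L g.J ≤ g.M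
  R_le : 16 * (R + 1) ≤ g.M
  sep : g.SepW (8 * sc L g.J)
  st : g.Steps L g.J C

end Geo

end Vale.Agent.P144Z
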